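import Vale.Agent.P125.PartA
import Vale.Agent.P125.Helly
import Vale.Agent.P125.Growth
import Vale.Agent.P125.Renorm
import Vale.Agent.P125.Duality

/-!
P125, Q1: nontrivial Markov type implies superreflexivity.

If `X` has Markov type `p > 1`, then `X` has no uniform summing sequences (a nested-arc Markov
chain), hence neither does its dual or its bidual, hence martingale constants grow slower than
`√n`, hence `X` has equivalent uniformly smooth and uniformly convex norms.
-/

namespace Vale.Agent.Results.P125.Superreflexive

open Vale.Agent.P125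

universe u

theorem result : ∀ (X : Type u) [NormedAddCommGroup X] [NormedSpace ℝ X] (p : ℝ),
    1 < p → MarkovType X p →
    (∃ N : Seminorm ℝ X, IsEquivNorm N ∧ IsUniformlySmooth N) ∧
      (∃ N : Seminorm ℝ X, IsEquivNorm N ∧ IsUniformlyConvex N) := by
  intro X _ _ p hp hX
  have h0 : ¬ Summing X := fun hS => not_markovType_of_summing hS hp hX
  have h1 : ¬ Summing (X →L[ℝ] ℝ) := fun hS => h0 (summing_of_dual hS)
  have h2 : ¬ Summing ((X →L[ℝ] ℝ) →L[ℝ] ℝ) := fun hS => h1 (summing_of_dual hS)
  exact ⟨smoothNorm_of_martGrowth (martGrowth_of_not_summing h1),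
    convexNorm_of_dual (smoothNorm_of_martGrowth (martGrowth_of_not_summing h2))⟩

end Vale.Agent.Results.P125.Superreflexive
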